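import Vale.Agent.N075.Op

/-! # P075: the principal value -/

namespace Vale.Agent.N075

open MeasureTheory Filter Topology ENNReal Vale.Agent.P075.R Vale.Agent.P075.R.H903

variable {H F G : ℝ × ℝ → ℂ}

theorem nice_tr (hs : HasCompactSupport F) (hc : ContDiff ℝ 1 F) :
    ∃ L : ℝ, 0 ≤ L ∧ ∀ a : ℝ × ℝ, N3 (fun z => F (z + a) - F (z + 0)) ≤ L * ‖a‖ := by
  obtain ⟨k, hk⟩ := hc.lipschitzWith_of_hasCompactSupport hs one_ne_zero
  set χ : ℝ × ℝ → ℂ := (tsupport F).indicator fun _ => (1 : ℂ) with hχ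
  have hχm : MemLp χ 3 volume := memLp_indicator_const 3 (isClosed_tsupport F).measurableSet
    (1 : ℂ) (Or.inr hs.isCompact.measure_lt_top.ne)
  refine ⟨k * (N3 χ + N3 χ), mul_nonneg k.2 (add_nonneg (N3_nonneg _) (N3_nonneg _)), fun a => ?_⟩
  have hm : MemLp (fun z => χ (z + a) + χ z) 3 volume := (mem_tr hχm a).add hχm
  have h1 : eLpNorm (fun z => F (z + a) - F (z + 0)) 3 volume
      ≤ ENNReal.ofReal (k * ‖a‖) * eLpNorm (fun z => χ (z + a) + χ z) 3 volume := by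
    refine eLpNorm_le_mul_eLpNorm_of_ae_le_mul (ae_of_all _ fun z => ?_) 3
    have h2 : ‖F (z + a) - F (z + 0)‖ ≤ k * ‖a‖ := by
      have := hk.norm_sub_le (z + a) (z + 0)
      simpa using this
    have h0 : 0 ≤ (k : ℝ) * ‖a‖ := mul_nonneg k.2 (norm_nonneg _)
    by_cases h3 : z + a ∈ tsupport F <;> by_cases h4 : z ∈ tsupport F
    · simp only [hχ, Set.indicator_of_mem h3, Set.indicator_of_mem h4]
      have : ‖(1 + 1 : ℂ)‖ = 2 := by norm_num
      rw [this]; linarith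
    · simpa only [hχ, Set.indicator_of_mem h3, Set.indicator_of_notMem h4, add_zero, norm_one,
        mul_one] using h2
    · simpa only [hχ, Set.indicator_of_mem h4, Set.indicator_of_notMem h3, zero_add, norm_one,
        mul_one] using h2
    · rw [add_zero, image_eq_zero_of_notMem_tsupport h3, image_eq_zero_of_notMem_tsupport h4,
        sub_zero, norm_zero]
      positivity
  have h2 : eLpNorm (fun z => χ (z + a) + χ z) 3 volume
      ≤ eLpNorm χ 3 volume + eLpNorm χ 3 volume := by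
    have := eLpNorm_add_le (p := 3) (mem_tr hχm a).1 hχm.1 (by norm_num)
    rw [eLp_tr hχm] at this
    exact this
  have h3 := ENNReal.toReal_mono (ENNReal.mul_ne_top ENNReal.ofReal_ne_top
    (ENNReal.add_ne_top.mpr ⟨hχm.2.ne, hχm.2.ne⟩)) (h1.trans (mul_le_mul_right h2 _))
  rw [ENNReal.toReal_mul, ENNReal.toReal_ofReal (by positivity),
    ENNReal.toReal_add hχm.2.ne hχm.2.ne] at h3
  refine h3.trans (le_of_eq ?_)
  unfold N3
  ring

theorem int_Lam (hH : MemLp H 3 volume) (hF : MemLp F 3 volume) (hG : MemLp G 3 volume)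
    (v w : ℝ × ℝ) {ε : ℝ} (hε : 0 < ε) (R : ℝ) :
    IntegrableOn (fun t : ℝ => Phi H F G (t • v) (t • w) / (t : ℂ)) (K ε R) volume := by
  have := (int_prod hH hF hG v w hε R).integral_prod_left
  simp only [← mul_div_assoc, integral_div] at this
  exact this

theorem odd_zero (ε R S : ℝ) :
    ∫ t in K ε R, (Set.Ioo (-S) S).indicator (fun t : ℝ => ((t : ℂ))⁻¹) t = 0 := by
  classical
  rw [← integral_indicator (K_meas ε R)]
  set f := (K ε R).indicator ((Set.Ioo (-S) S).indicator fun t : ℝ => ((t : ℂ))⁻¹) with hf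
  have h1 := integral_neg_eq_self f volume
  have h2 : ∀ t, f (-t) = -f t := by
    intro t
    have e1 : -t ∈ K ε R ↔ t ∈ K ε R := by simp [K]
    have e2 : -t ∈ Set.Ioo (-S) S ↔ t ∈ Set.Ioo (-S) S := by
      simp only [Set.mem_Ioo]; constructor <;> rintro ⟨a, b⟩ <;> constructor <;> linarith
    simp only [hf, Set.indicator_apply, e1, e2]
    split_ifs <;> simp
  simp only [h2, integral_neg] at h1
  linear_combination (-1 / 2 : ℂ) * h1

/-- Cauchy property for smooth functions with compact support. -/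
theorem nice_cauchy (hs : HasCompactSupport F) (hc : ContDiff ℝ 1 F) (hs' : HasCompactSupport G)
    (hc' : ContDiff ℝ 1 G) {v w : ℝ × ℝ} (hvw : v ≠ w) :
    ∃ L S : ℝ, 0 ≤ L ∧ ∀ H, MemLp H 3 volume → ∃ c : ℂ, ∀ ε R : ℝ, 0 < ε → S ≤ R →
      ‖Lam v w ε R H F G - c‖ ≤ ε * L * N3 H := by
  have hF : MemLp F 3 volume := hc.continuous.memLp_of_hasCompactSupport hs
  have hG : MemLp G 3 volume := hc'.continuous.memLp_of_hasCompactSupport hs'
  obtain ⟨L1, hL1, h1⟩ := nice_tr hs hc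
  obtain ⟨L2, hL2, h2⟩ := nice_tr hs' hc'
  obtain ⟨M1, hM1⟩ := hs.isCompact.isBounded.exists_norm_le
  obtain ⟨M2, hM2⟩ := hs'.isCompact.isBounded.exists_norm_le
  have hd : 0 < ‖v - w‖ := norm_pos_iff.mpr (sub_ne_zero.mpr hvw)
  set S : ℝ := (M1 + M2) / ‖v - w‖ + 1 with hS
  set L : ℝ := L1 * ‖v‖ * N3 G + N3 F * (L2 * ‖w‖) with hL
  have hL0 : 0 ≤ L := add_nonneg (mul_nonneg (mul_nonneg hL1 (norm_nonneg _)) (N3_nonneg _))
    (mul_nonneg (N3_nonneg _) (mul_nonneg hL2 (norm_nonneg _)))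
  refine ⟨2 * L, S, by positivity, fun H hH => ?_⟩
  have hN := N3_nonneg H
  set u : ℝ → ℂ := fun t => Phi H F G (t • v) (t • w) with hu
  have huc : Continuous u := (Phi_cont hH hF hG).comp (f := fun t : ℝ => (t • v, t • w))
    (by fun_prop)
  have hu0 : ∀ t, S ≤ |t| → u t = 0 := by
    intro t ht
    refine integral_eq_zero_of_ae (ae_of_all _ fun z => ?_)
    by_contra hne
    have a1 := hM1 _ (subset_tsupport F (left_ne_zero_of_mul (right_ne_zero_of_mul hne)))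
    have a2 := hM2 _ (subset_tsupport G (right_ne_zero_of_mul (right_ne_zero_of_mul hne)))
    have a3 : ‖t • (v - w)‖ ≤ M1 + M2 := by
      rw [show t • (v - w) = (z + t • v) - (z + t • w) by rw [smul_sub]; abel]
      exact (norm_sub_le _ _).trans (add_le_add a1 a2)
    rw [norm_smul, Real.norm_eq_abs, ← le_div_iff₀ hd] at a3
    linarith
  have hu1 : ∀ t, ‖u t - u 0‖ ≤ L * N3 H * |t| := by
    intro t
    have a := Phi_sub hH hF hG (t • v) (t • w) 0 0
    have b1 := h1 (t • v)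
    have b2 := h2 (t • w)
    rw [norm_smul, Real.norm_eq_abs] at b1 b2
    simp only [hu, zero_smul]
    refine a.trans ?_
    calc _ ≤ N3 H * (L1 * (|t| * ‖v‖) * N3 G) + N3 H * (N3 F * (L2 * (|t| * ‖w‖))) :=
          add_le_add (mul_le_mul_of_nonneg_left (mul_le_mul_of_nonneg_right b1 (N3_nonneg _)) hN)
            (mul_le_mul_of_nonneg_left (mul_le_mul_of_nonneg_left b2 (N3_nonneg _)) hN)
      _ = _ := by rw [hL]; ring
  set ψ : ℝ → ℂ := (Set.Ioo (-S) S).indicator fun t => (u t - u 0) / (t : ℂ) with hψ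
  have hψb : ∀ t, ‖(u t - u 0) / (t : ℂ)‖ ≤ L * N3 H := by
    intro t
    rw [norm_div, Complex.norm_real, Real.norm_eq_abs]
    exact div_le_of_le_mul₀ (abs_nonneg _) (by positivity) (hu1 t)
  have hψi : Integrable ψ volume := by
    rw [hψ, integrable_indicator_iff measurableSet_Ioo]
    exact Measure.integrableOn_of_bounded (M := L * N3 H) (by simp)
      ((huc.sub continuous_const).measurable.div Complex.measurable_ofReal).aestronglyMeasurable
      (ae_of_all _ hψb)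
  refine ⟨∫ t, ψ t, fun ε R hε hR => ?_⟩
  have e1 : ∀ t, u t / (t : ℂ) - ψ t
      = u 0 * (Set.Ioo (-S) S).indicator (fun t : ℝ => ((t : ℂ))⁻¹) t := by
    intro t
    by_cases ht : t ∈ Set.Ioo (-S) S
    · simp only [hψ, Set.indicator_of_mem ht]; ring
    · simp only [hψ, Set.indicator_of_notMem ht]
      rw [hu0 t (not_lt.mp fun h => ht (abs_lt.mp h))]
      simp
  have e2 : Lam v w ε R H F G = ∫ t in K ε R, ψ t := by
    rw [← sub_eq_zero, Lam, ← integral_sub (int_Lam hH hF hG v w hε R) hψi.integrableOn]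
    change ∫ t in K ε R, (u t / (t : ℂ) - ψ t) = 0
    simp only [e1]
    rw [integral_const_mul, odd_zero, mul_zero]
  rw [e2, ← integral_add_compl (K_meas ε R) hψi, sub_add_cancel_left, norm_neg,
    ← integral_indicator (K_meas ε R).compl]
  have hb : Integrable ((Set.Icc (-ε) ε).indicator fun _ : ℝ => L * N3 H) volume := by
    rw [integrable_indicator_iff measurableSet_Icc]
    exact integrableOn_const (by simp)
  refine (norm_integral_le_of_norm_le hb (ae_of_all _ fun t => ?_)).trans (le_of_eq ?_)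
  · by_cases h3 : t ∈ Set.Icc (-ε) ε
    · rw [Set.indicator_of_mem h3]
      exact (norm_indicator_le_norm_self _ _).trans ((norm_indicator_le_norm_self _ _).trans (hψb t))
    · rw [Set.indicator_of_notMem h3]
      by_cases h4 : t ∈ (K ε R)ᶜ
      · have h5 : ε < |t| := not_le.mp fun h => h3 (abs_le.mp h)
        have h6 : R ≤ |t| := not_lt.mp fun h => h4 ⟨h5, h⟩
        have h7 : t ∉ Set.Ioo (-S) S := fun h => absurd (abs_lt.mpr h) (not_lt.mpr (hR.trans h6))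
        rw [Set.indicator_of_mem h4, hψ, Set.indicator_of_notMem h7, norm_zero]
      · rw [Set.indicator_of_notMem h4, norm_zero]
  · rw [integral_indicator measurableSet_Icc, setIntegral_const, Real.volume_real_Icc_of_le
      (by linarith), smul_eq_mul]
    ring

theorem Lam_sub {F' G' : ℝ × ℝ → ℂ} (hH : MemLp H 3 volume) (hF : MemLp F 3 volume)
    (hG : MemLp G 3 volume) (hF' : MemLp F' 3 volume) (hG' : MemLp G' 3 volume)
    (v w : ℝ × ℝ) {ε : ℝ} (hε : 0 < ε) (R : ℝ) :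
    Lam v w ε R H F G - Lam v w ε R H F' G'
      = Lam v w ε R H (F - F') G + Lam v w ε R H F' (G - G') := by
  unfold Lam
  rw [← integral_sub (int_Lam hH hF hG v w hε R) (int_Lam hH hF' hG' v w hε R),
    ← integral_add (int_Lam hH (hF.sub hF') hG v w hε R) (int_Lam hH hF' (hG.sub hG') v w hε R)]
  refine integral_congr_ae (ae_of_all _ fun t => ?_)
  simp only
  rw [← sub_div, ← add_div]
  congr 1
  unfold Phi
  rw [← integral_sub (tri_int hH (mem_tr hF _) (mem_tr hG _))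
    (tri_int hH (mem_tr hF' _) (mem_tr hG' _)),
    ← integral_add (tri_int hH (mem_tr (hF.sub hF') _) (mem_tr hG _))
      (tri_int hH (mem_tr hF' _) (mem_tr (hG.sub hG') _))]
  refine integral_congr_ae (ae_of_all _ fun z => ?_)
  simp only [Pi.sub_apply]
  ring

section

variable {C : ℝ} (hC0 : 0 ≤ C) (hC : ∀ (v w : ℝ × ℝ) (H F G : ℝ × ℝ → ℂ),
    MemLp H 3 volume → MemLp F 3 volume → MemLp G 3 volume →
    ∀ ε R : ℝ, 0 < ε → ε < R → ‖Lam v w ε R H F G‖ ≤ C * (N3 H * (N3 F * N3 G)))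

include hC0 hC

theorem B_cauchy (hF : MemLp F 3 volume) (hG : MemLp G 3 volume) {v w : ℝ × ℝ} (hvw : v ≠ w)
    {θ : ℝ} (hθ : 0 < θ) : ∃ η S : ℝ, 0 < η ∧ η < S ∧ ∀ ε R ε' R' : ℝ, 0 < ε → ε < η → S ≤ R →
      0 < ε' → ε' < η → S ≤ R' →
      eLpNorm (B v w ε R F G - B v w ε' R' F G) (3 / 2) volume ≤ ENNReal.ofReal θ := by
  have hNF := N3_nonneg F
  have hNG := N3_nonneg G
  set A : ℝ := 2 * (C * (N3 G + (N3 F + 1))) + 1 with hA
  have hA0 : 0 < A := by positivity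
  set δ : ℝ := min 1 (θ / 2 / A) with hδ
  have hδ0 : 0 < δ := lt_min one_pos (by positivity)
  have hδ1 : δ ≤ 1 := min_le_left _ _
  have hδ2 : δ * A ≤ θ / 2 := (le_div_iff₀ hA0).mp (min_le_right _ _)
  obtain ⟨F', s1, c1, e1⟩ := hF.exist_eLpNorm_sub_le (by norm_num) (by norm_num) hδ0
  obtain ⟨G', s2, c2, e2⟩ := hG.exist_eLpNorm_sub_le (by norm_num) (by norm_num) hδ0
  have hF' : MemLp F' 3 volume := c1.continuous.memLp_of_hasCompactSupport s1
  have hG' : MemLp G' 3 volume := c2.continuous.memLp_of_hasCompactSupport s2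
  have d1 : N3 (F - F') ≤ δ := ENNReal.toReal_le_of_le_ofReal hδ0.le e1
  have d2 : N3 (G - G') ≤ δ := ENNReal.toReal_le_of_le_ofReal hδ0.le e2
  have d3 : N3 F' ≤ N3 F + 1 := (N3_le_add hF hF' d1).trans (by linarith)
  obtain ⟨L, S, hL, hn⟩ := nice_cauchy s1 (c1.of_le (by exact_mod_cast le_top)) s2
    (c2.of_le (by exact_mod_cast le_top)) hvw
  set η : ℝ := θ / 4 / (L + 1) with hη
  have hη0 : 0 < η := by positivity
  have hη1 : η * L ≤ θ / 4 := by
    have : η * (L + 1) = θ / 4 := by rw [hη]; field_simp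
    linarith
  refine ⟨η, max S (η + 1), hη0, lt_of_lt_of_le (by linarith) (le_max_right _ _),
    fun ε R ε' R' h1 h2 h3 h4 h5 h6 => ?_⟩
  refine dual ((aesm_B hF.1 hG.1 v w ε R).sub (aesm_B hF.1 hG.1 v w ε' R')) hθ.le fun H hH => ?_
  have hN := N3_nonneg H
  obtain ⟨c, hc⟩ := hn H hH
  have key : ∀ ε R : ℝ, 0 < ε → ε < η → max S (η + 1) ≤ R →
      ‖Lam v w ε R H F G - c‖ ≤ θ / 2 * N3 H := by
    intro ε R h1 h2 h3
    have hR : ε < R := by linarith [le_max_right S (η + 1)]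
    have a1 := hc ε R h1 ((le_max_left _ _).trans h3)
    have a2 := hC v w H _ _ hH (hF.sub hF') hG ε R h1 hR
    have a3 := hC v w H _ _ hH hF' (hG.sub hG') ε R h1 hR
    have e : Lam v w ε R H F G - c = (Lam v w ε R H (F - F') G + Lam v w ε R H F' (G - G'))
        + (Lam v w ε R H F' G' - c) := by
      rw [← Lam_sub hH hF hG hF' hG' v w h1 R]; ring
    rw [e]
    have b1 : C * (N3 H * (N3 (F - F') * N3 G)) ≤ C * (N3 H * (δ * N3 G)) := by gcongr
    have b2 : C * (N3 H * (N3 F' * N3 (G - G'))) ≤ C * (N3 H * ((N3 F + 1) * δ)) := by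
      gcongr
      exact N3_nonneg _
    have b3 : ε * L * N3 H ≤ θ / 4 * N3 H :=
      mul_le_mul_of_nonneg_right ((mul_le_mul_of_nonneg_right h2.le hL).trans hη1) hN
    have b4 : δ * (C * (N3 G + (N3 F + 1))) * N3 H ≤ θ / 4 * N3 H :=
      mul_le_mul_of_nonneg_right (by rw [hA] at hδ2; linarith) hN
    have b5 := (norm_add_le _ _).trans (add_le_add ((norm_add_le _ _).trans
      (add_le_add (a2.trans b1) (a3.trans b2))) (a1.trans b3))
    refine b5.trans ?_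
    linarith
  simp only [Pi.sub_apply, mul_sub]
  rw [integral_sub (pair_B hH hF hG v w h1 R).1 (pair_B hH hF hG v w h4 R').1,
    (pair_B hH hF hG v w h1 R).2, (pair_B hH hF hG v w h4 R').2]
  have := norm_sub_le (Lam v w ε R H F G - c) (Lam v w ε' R' H F G - c)
  rw [sub_sub_sub_cancel_right] at this
  linarith [key ε R h1 h2 h3, key ε' R' h4 h5 h6]

theorem B_lim (hF : MemLp F 3 volume) (hG : MemLp G 3 volume) {v w : ℝ × ℝ} (hvw : v ≠ w) :
    ∃ T : ℝ × ℝ → ℂ, AEStronglyMeasurable T volume ∧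
      eLpNorm T (3 / 2) volume ≤ ENNReal.ofReal (C * (N3 F * N3 G)) ∧
      Tendsto (fun p : ℝ × ℝ => eLpNorm (B v w p.1 p.2 F G - T) (3 / 2) volume)
        (𝓝[>] 0 ×ˢ atTop) (𝓝 0) := by
  classical
  have : Fact ((1 : ℝ≥0∞) ≤ 3 / 2) := ⟨by
    rw [ENNReal.le_div_iff_mul_le (Or.inl (by norm_num)) (Or.inl (by norm_num))]; norm_num⟩
  have hm : ∀ ε R : ℝ, 0 < ε → ε < R → MemLp (B v w ε R F G) (3 / 2) volume := fun ε R h1 h2 =>
    ⟨aesm_B hF.1 hG.1 v w ε R, (B_bound hC0 hC hF hG v w h1 h2).trans_lt ENNReal.ofReal_lt_top⟩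
  let f : ℝ × ℝ → Lp ℂ (3 / 2) (volume : Measure (ℝ × ℝ)) := fun p =>
    if h : MemLp (B v w p.1 p.2 F G) (3 / 2) volume then h.toLp _ else 0
  have hf : ∀ p : ℝ × ℝ, 0 < p.1 → p.1 < p.2 → f p =ᵐ[volume] B v w p.1 p.2 F G := by
    intro p h1 h2
    simp only [f, dif_pos (hm p.1 p.2 h1 h2)]
    exact MemLp.coeFn_toLp _
  have hreg : ∀ η S : ℝ, 0 < η →
      ∀ᶠ p : ℝ × ℝ in 𝓝[>] 0 ×ˢ atTop, (0 < p.1 ∧ p.1 < η) ∧ S ≤ p.2 := fun η S hη =>
    Eventually.prod_mk (pa := fun x : ℝ => 0 < x ∧ x < η) (pb := fun y : ℝ => S ≤ y)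
      (Ioo_mem_nhdsGT hη) (eventually_ge_atTop S)
  have hcau : Cauchy (map f (𝓝[>] 0 ×ˢ atTop)) := by
    refine Metric.cauchy_iff.mpr ⟨inferInstance, fun θ hθ => ?_⟩
    obtain ⟨η, S, hη, hS, h⟩ := B_cauchy hC0 hC hF hG hvw (half_pos hθ)
    refine ⟨f '' {p | (0 < p.1 ∧ p.1 < η) ∧ S ≤ p.2}, image_mem_map (hreg η S hη), ?_⟩
    rintro _ ⟨p, hp, rfl⟩ _ ⟨q, hq, rfl⟩
    rw [Lp.dist_def, eLpNorm_congr_ae ((hf p hp.1.1 (by linarith [hp.1.2, hp.2])).sub
      (hf q hq.1.1 (by linarith [hq.1.2, hq.2])))]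
    exact (ENNReal.toReal_le_of_le_ofReal (half_pos hθ).le
      (h _ _ _ _ hp.1.1 hp.1.2 hp.2 hq.1.1 hq.1.2 hq.2)).trans_lt (half_lt_self hθ)
  obtain ⟨T, hT⟩ := CompleteSpace.complete hcau
  have hT' : Tendsto f (𝓝[>] 0 ×ˢ atTop) (𝓝 T) := hT
  have h0 : 0 ≤ C * (N3 F * N3 G) := mul_nonneg hC0 (mul_nonneg (N3_nonneg _) (N3_nonneg _))
  refine ⟨T, Lp.aestronglyMeasurable T, ?_, ?_⟩
  · have h1 : ‖T‖ ≤ C * (N3 F * N3 G) := by
      refine le_of_tendsto hT'.norm ?_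
      filter_upwards [hreg 1 1 one_pos] with p hp
      have h2 : p.1 < p.2 := hp.1.2.trans_le hp.2
      rw [Lp.norm_def, eLpNorm_congr_ae (hf p hp.1.1 h2)]
      exact ENNReal.toReal_le_of_le_ofReal h0 (B_bound hC0 hC hF hG v w hp.1.1 h2)
    rw [Lp.norm_def] at h1
    exact (ENNReal.le_ofReal_iff_toReal_le (Lp.eLpNorm_ne_top T) h0).mpr h1
  · refine ((Lp.tendsto_Lp_iff_tendsto_eLpNorm' f T).mp hT').congr' ?_
    filter_upwards [hreg 1 1 one_pos] with p hp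
    exact eLpNorm_congr_ae ((hf p hp.1.1 (hp.1.2.trans_le hp.2)).sub EventuallyEq.rfl)

end

/-- The operator form for all pairs of directions, and the principal value. -/
theorem operator : ∃ C : NNReal, ∀ (v w : ℝ × ℝ) (F G : ℝ × ℝ → ℂ),
    MemLp F 3 volume → MemLp G 3 volume →
    (∀ ε R : ℝ, 0 < ε → ε < R →
      (∀ᵐ z : ℝ × ℝ, IntegrableOn (fun t : ℝ => F (z + t • v) * G (z + t • w) / (t : ℂ))
        {t : ℝ | ε < |t| ∧ |t| < R} volume) ∧ AEStronglyMeasurable (B v w ε R F G) volume ∧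
      eLpNorm (B v w ε R F G) (3 / 2) volume ≤ C * (eLpNorm F 3 volume * eLpNorm G 3 volume)) ∧
    (v ≠ w → ∃ T : ℝ × ℝ → ℂ, AEStronglyMeasurable T volume ∧
      eLpNorm T (3 / 2) volume ≤ C * (eLpNorm F 3 volume * eLpNorm G 3 volume) ∧
      Tendsto (fun p : ℝ × ℝ => eLpNorm (B v w p.1 p.2 F G - T) (3 / 2) volume)
        (𝓝[>] 0 ×ˢ atTop) (𝓝 0)) := by
  obtain ⟨C, hC⟩ := Lam_all
  have hC' : ∀ (v w : ℝ × ℝ) (H F G : ℝ × ℝ → ℂ),
      MemLp H 3 volume → MemLp F 3 volume → MemLp G 3 volume →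
      ∀ ε R : ℝ, 0 < ε → ε < R → ‖Lam v w ε R H F G‖ ≤ max C 0 * (N3 H * (N3 F * N3 G)) :=
    fun v w H F G hH hF hG ε R h1 h2 => (hC v w H F G hH hF hG ε R h1 h2).trans
      (mul_le_mul_of_nonneg_right (le_max_left _ _)
        (mul_nonneg (N3_nonneg _) (mul_nonneg (N3_nonneg _) (N3_nonneg _))))
  refine ⟨C.toNNReal, fun v w F G hF hG => ?_⟩
  have e : ENNReal.ofReal (max C 0 * (N3 F * N3 G))
      = (C.toNNReal : ℝ≥0∞) * (eLpNorm F 3 volume * eLpNorm G 3 volume) := by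
    rw [ENNReal.ofReal_mul (le_max_right _ _), ENNReal.ofReal_mul (N3_nonneg _), N3, N3,
      ENNReal.ofReal_toReal hF.2.ne, ENNReal.ofReal_toReal hG.2.ne, ← Real.coe_toNNReal',
      ENNReal.ofReal_coe_nnreal]
  rw [← e]
  exact ⟨fun ε R h1 h2 => ⟨ae_int hF hG v w h1 R, aesm_B hF.1 hG.1 v w ε R,
    B_bound (le_max_right _ _) hC' hF hG v w h1 h2⟩,
    fun hvw => B_lim (le_max_right _ _) hC' hF hG hvw⟩

end Vale.Agent.N075

namespace Vale.Agent.N075

open MeasureTheory Vale.Agent.P075.R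

/-- Question 1 as posed. -/
theorem question : ∃ C : ℝ, ∀ ε R : ℝ, 0 < ε → ε < R → ∀ G₀ G₁ G₂ : ℝ × ℝ → ℂ,
    MemLp G₀ 3 volume → MemLp G₁ 3 volume → MemLp G₂ 3 volume →
      IntegrableOn (fun x : ℝ × ℝ × ℝ =>
          G₀ (x.1, x.2.1) * G₁ (x.2.1, x.2.2) * G₂ (x.2.2, x.1) / ((x.1 + x.2.1 + x.2.2 : ℝ) : ℂ))
        {x | ε < |x.1 + x.2.1 + x.2.2| ∧ |x.1 + x.2.1 + x.2.2| < R} volume ∧
      ‖∫ x in {x : ℝ × ℝ × ℝ | ε < |x.1 + x.2.1 + x.2.2| ∧ |x.1 + x.2.1 + x.2.2| < R},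
          G₀ (x.1, x.2.1) * G₁ (x.2.1, x.2.2) * G₂ (x.2.2, x.1) / ((x.1 + x.2.1 + x.2.2 : ℝ) : ℂ)‖
        ≤ C * ((eLpNorm G₀ 3 volume).toReal * (eLpNorm G₁ 3 volume).toReal
          * (eLpNorm G₂ 3 volume).toReal) := by
  obtain ⟨C, hC⟩ := full
  refine ⟨C, fun ε R hε hR G₀ G₁ G₂ h₀ h₁ h₂ => ?_⟩
  obtain ⟨hi, hb⟩ := hC G₀ G₁ G₂ h₀ h₁ h₂ ε R hε hR
  have e : kern ε R G₀ G₁ G₂ =
      Set.indicator {x : ℝ × ℝ × ℝ | ε < |x.1 + x.2.1 + x.2.2| ∧ |x.1 + x.2.1 + x.2.2| < R}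
        (fun x => G₀ (x.1, x.2.1) * G₁ (x.2.1, x.2.2) * G₂ (x.2.2, x.1)
          / ((x.1 + x.2.1 + x.2.2 : ℝ) : ℂ)) := by
    funext x
    by_cases h : ε < |x.1 + x.2.1 + x.2.2| ∧ |x.1 + x.2.1 + x.2.2| < R
    · rw [Set.indicator_of_mem (by exact h), kern, if_pos h]
    · rw [Set.indicator_of_notMem (by exact h), kern, if_neg h]
  have hm : MeasurableSet
      {x : ℝ × ℝ × ℝ | ε < |x.1 + x.2.1 + x.2.2| ∧ |x.1 + x.2.1 + x.2.2| < R} := by
    have h : Measurable fun x : ℝ × ℝ × ℝ => |x.1 + x.2.1 + x.2.2| := by fun_prop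
    exact (measurableSet_lt measurable_const h).inter (measurableSet_lt h measurable_const)
  rw [e] at hi hb
  exact ⟨(integrable_indicator_iff hm).1 hi, by rwa [integral_indicator hm] at hb⟩

end Vale.Agent.N075
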