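import Mathlib

/-! # P075: the truncated bilinear Hilbert transform of the plane in two directions -/

namespace Vale.Agent.N075

/-- `B v w ε R F G z` is the integral of `F (z + t v) G (z + t w) / t` over `ε < |t| < R`. -/
noncomputable def B (v w : ℝ × ℝ) (ε R : ℝ) (F G : ℝ × ℝ → ℂ) (z : ℝ × ℝ) : ℂ :=
  ∫ t in {t : ℝ | ε < |t| ∧ |t| < R}, F (z + t • v) * G (z + t • w) / (t : ℂ)

end Vale.Agent.N075
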