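import Vale.Agent.P075.R.Final

/-! # P075: the form for all pairs of directions -/

namespace Vale.Agent.N075

open MeasureTheory Filter Topology ENNReal Vale.Agent.P075.R Vale.Agent.P075.R.H903

theorem ht1 : ENNReal.HolderTriple 3 3 (3 / 2) := ⟨by
  rw [ENNReal.inv_div (Or.inl (by norm_num)) (Or.inl (by norm_num)), ← two_mul, div_eq_mul_inv]⟩

theorem ht2 : ENNReal.HolderTriple 3 (3 / 2) 1 := ⟨by
  rw [ENNReal.inv_div (Or.inl (by norm_num)) (Or.inl (by norm_num)), div_eq_mul_inv, inv_one,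
    ← one_add_mul, show (1 + 2 : ℝ≥0∞) = 3 by norm_num]
  exact ENNReal.mul_inv_cancel (by norm_num) (by norm_num)⟩

variable {H F G : ℝ × ℝ → ℂ}

theorem tri_le (hH : MemLp H 3 volume) (hF : MemLp F 3 volume) (hG : MemLp G 3 volume) :
    ∫⁻ z, ‖H z * (F z * G z)‖ₑ ≤ eLpNorm H 3 volume * (eLpNorm F 3 volume * eLpNorm G 3 volume) := by
  have := ht1
  have := ht2
  rw [← eLpNorm_one_eq_lintegral_enorm]
  refine (eLpNorm_smul_le_mul_eLpNorm (p := 3) (q := 3 / 2) (r := 1) (f := F • G) (φ := H)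
    (hF.1.smul hG.1) hH.1).trans ?_
  gcongr
  exact eLpNorm_smul_le_mul_eLpNorm (p := 3) (q := 3) (r := 3 / 2) hG.1 hF.1

theorem tri_int (hH : MemLp H 3 volume) (hF : MemLp F 3 volume) (hG : MemLp G 3 volume) :
    Integrable (fun z => H z * (F z * G z)) volume :=
  ⟨hH.1.mul (hF.1.mul hG.1), (tri_le hH hF hG).trans_lt
    (ENNReal.mul_lt_top hH.2 (ENNReal.mul_lt_top hF.2 hG.2))⟩

theorem tri_norm (hH : MemLp H 3 volume) (hF : MemLp F 3 volume) (hG : MemLp G 3 volume) :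
    ‖∫ z, H z * (F z * G z)‖ ≤ N3 H * (N3 F * N3 G) := by
  refine (norm_integral_le_lintegral_norm _).trans ?_
  simp only [ofReal_norm, N3, ← ENNReal.toReal_mul]
  exact ENNReal.toReal_mono
    (ENNReal.mul_lt_top hH.2 (ENNReal.mul_lt_top hF.2 hG.2)).ne (tri_le hH hF hG)

theorem mem_tr (hF : MemLp F 3 volume) (a : ℝ × ℝ) : MemLp (fun z => F (z + a)) 3 volume :=
  hF.comp_measurePreserving (measurePreserving_add_right volume a)

theorem eLp_tr (hF : MemLp F 3 volume) (a : ℝ × ℝ) :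
    eLpNorm (fun z => F (z + a)) 3 volume = eLpNorm F 3 volume :=
  eLpNorm_comp_measurePreserving hF.1 (measurePreserving_add_right volume a)

theorem N3_tr (hF : MemLp F 3 volume) (a : ℝ × ℝ) : N3 (fun z => F (z + a)) = N3 F := by
  unfold N3; rw [eLp_tr hF]

theorem tr_cont (hF : MemLp F 3 volume) (a : ℝ × ℝ) :
    Tendsto (fun b => N3 (fun z => F (z + b) - F (z + a))) (𝓝 a) (𝓝 0) := by
  have : Fact ((1 : ℝ≥0∞) ≤ 3) := ⟨by norm_num⟩
  let g : ℝ × ℝ → C(ℝ × ℝ, ℝ × ℝ) := fun b => ⟨fun z => z + b, by fun_prop⟩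
  have hg : Continuous g := ContinuousMap.continuous_of_continuous_uncurry g (by
    change Continuous fun p : (ℝ × ℝ) × (ℝ × ℝ) => p.2 + p.1
    fun_prop)
  have hm : ∀ b, MeasurePreserving (g b) volume volume := fun b =>
    measurePreserving_add_right volume b
  have hc := Continuous.compMeasurePreservingLp (f := fun _ : ℝ × ℝ => hF.toLp F)
    continuous_const hg hm (by norm_num)
  have h1 := (hc.tendsto a).sub_const (Lp.compMeasurePreserving (g a) (hm a) (hF.toLp F))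
  rw [sub_self] at h1
  have h2 := h1.norm
  rw [norm_zero] at h2
  refine h2.congr fun b => ?_
  rw [Lp.norm_def, N3]
  congr 1
  refine eLpNorm_congr_ae ?_
  have e : ∀ c, (Lp.compMeasurePreserving (g c) (hm c) (hF.toLp F) : ℝ × ℝ → ℂ)
      =ᵐ[volume] fun z => F (z + c) := fun c =>
    (Lp.coeFn_compMeasurePreserving _ (hm c)).trans
      ((hm c).quasiMeasurePreserving.ae_eq_comp hF.coeFn_toLp)
  filter_upwards [Lp.coeFn_sub (Lp.compMeasurePreserving (g b) (hm b) (hF.toLp F))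
    (Lp.compMeasurePreserving (g a) (hm a) (hF.toLp F)), e a, e b] with z h3 h4 h5
  rw [h3, Pi.sub_apply, h4, h5]

/-- the correlation of three translates -/
noncomputable def Phi (H F G : ℝ × ℝ → ℂ) (a b : ℝ × ℝ) : ℂ :=
  ∫ z, H z * (F (z + a) * G (z + b))

theorem Phi_le (hH : MemLp H 3 volume) (hF : MemLp F 3 volume) (hG : MemLp G 3 volume)
    (a b : ℝ × ℝ) : ‖Phi H F G a b‖ ≤ N3 H * (N3 F * N3 G) := by
  have := tri_norm hH (mem_tr hF a) (mem_tr hG b)
  rwa [N3_tr hF, N3_tr hG] at this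

theorem Phi_sub (hH : MemLp H 3 volume) (hF : MemLp F 3 volume) (hG : MemLp G 3 volume)
    (a b a' b' : ℝ × ℝ) : ‖Phi H F G a b - Phi H F G a' b'‖ ≤
      N3 H * (N3 (fun z => F (z + a) - F (z + a')) * N3 G)
        + N3 H * (N3 F * N3 (fun z => G (z + b) - G (z + b'))) := by
  have m1 : MemLp (fun z => F (z + a) - F (z + a')) 3 volume := (mem_tr hF a).sub (mem_tr hF a')
  have m2 : MemLp (fun z => G (z + b) - G (z + b')) 3 volume := (mem_tr hG b).sub (mem_tr hG b')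
  have h1 := tri_norm hH m1 (mem_tr hG b)
  have h2 := tri_norm hH (mem_tr hF a') m2
  rw [N3_tr hG] at h1
  rw [N3_tr hF] at h2
  refine le_trans (le_of_eq ?_) ((norm_add_le _ _).trans (add_le_add h1 h2))
  congr 1
  unfold Phi
  rw [← integral_sub (tri_int hH (mem_tr hF a) (mem_tr hG b))
    (tri_int hH (mem_tr hF a') (mem_tr hG b')),
    ← integral_add (tri_int hH m1 (mem_tr hG b)) (tri_int hH (mem_tr hF a') m2)]
  refine integral_congr_ae (ae_of_all _ fun z => ?_)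
  ring

theorem Phi_cont (hH : MemLp H 3 volume) (hF : MemLp F 3 volume) (hG : MemLp G 3 volume) :
    Continuous fun p : (ℝ × ℝ) × (ℝ × ℝ) => Phi H F G p.1 p.2 := by
  refine continuous_iff_continuousAt.mpr fun p => ?_
  rw [ContinuousAt, tendsto_iff_norm_sub_tendsto_zero]
  refine squeeze_zero (fun _ => norm_nonneg _) (fun q => Phi_sub hH hF hG q.1 q.2 p.1 p.2) ?_
  have h1 := (((tr_cont hF p.1).comp (continuous_fst.tendsto p)).mul_const (N3 G)).const_mul (N3 H)
  have h2 := (((tr_cont hG p.2).comp (continuous_snd.tendsto p)).const_mul (N3 F)).const_mul (N3 H)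
  simpa using h1.add h2

/-- the set of integration -/
def K (ε R : ℝ) : Set ℝ := {t : ℝ | ε < |t| ∧ |t| < R}

theorem K_meas (ε R : ℝ) : MeasurableSet (K ε R) :=
  (measurableSet_lt measurable_const measurable_abs).inter
    (measurableSet_lt measurable_abs measurable_const)

theorem K_fin (ε R : ℝ) : volume (K ε R) < ∞ := by
  refine lt_of_le_of_lt (measure_mono (t := Set.Ioo (-R) R) fun t ht => abs_lt.mp ht.2) ?_
  simp

/-- the form in the directions `v`, `w` -/
noncomputable def Lam (v w : ℝ × ℝ) (ε R : ℝ) (H F G : ℝ × ℝ → ℂ) : ℂ :=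
  ∫ t in K ε R, Phi H F G (t • v) (t • w) / (t : ℂ)

theorem mp_lin {a b c d : ℝ} (h : a * d - b * c ≠ 0) :
    MeasurePreserving (fun x : ℝ × ℝ => (a * x.1 + b * x.2, c * x.1 + d * x.2)) volume
      (ENNReal.ofReal |(a * d - b * c)⁻¹| • volume) := by
  refine ⟨by fun_prop, ?_⟩
  let L := Matrix.toLin (Module.Basis.finTwoProd ℝ) (Module.Basis.finTwoProd ℝ) !![a, b; c, d]
  have hd : LinearMap.det L = a * d - b * c := by
    rw [LinearMap.det_toLin, Matrix.det_fin_two_of]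
  have := Measure.map_linearMap_addHaar_eq_smul_addHaar (volume : Measure (ℝ × ℝ)) (f := L)
    (by rwa [hd])
  rw [hd] at this
  rw [← this]
  congr 1
  funext x
  exact (Matrix.toLin_finTwoProd_apply a b c d x).symm

theorem comp_lin {c : ℝ} (hc : 0 < c) {T : ℝ × ℝ → ℝ × ℝ}
    (hT : MeasurePreserving T volume (ENNReal.ofReal c • volume)) (hF : MemLp F 3 volume) :
    MemLp (fun x => F (T x)) 3 volume ∧ N3 (fun x => F (T x)) = c ^ ((1 : ℝ) / 3) * N3 F := by
  have h1 : MemLp F 3 (ENNReal.ofReal c • volume) := hF.smul_measure ENNReal.ofReal_ne_top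
  refine ⟨h1.comp_measurePreserving hT, ?_⟩
  unfold N3
  have := eLpNorm_comp_measurePreserving (p := 3) h1.1 hT
  rw [eLpNorm_smul_measure_of_ne_top (by norm_num)] at this
  change (eLpNorm (F ∘ T) 3 volume).toReal = _
  rw [this, smul_eq_mul, ENNReal.toReal_mul, ← ENNReal.toReal_rpow, ENNReal.toReal_ofReal hc.le]
  norm_num

theorem Lam_indep : ∃ C : ℝ, ∀ (v w : ℝ × ℝ), v.1 * w.2 - w.1 * v.2 ≠ 0 →
    ∀ H F G : ℝ × ℝ → ℂ, MemLp H 3 volume → MemLp F 3 volume → MemLp G 3 volume →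
    ∀ ε R : ℝ, 0 < ε → ε < R → ‖Lam v w ε R H F G‖ ≤ C * (N3 H * (N3 F * N3 G)) := by
  obtain ⟨C, hC⟩ := full
  refine ⟨C, fun v w hD H F G hH hF hG ε R hε hR => ?_⟩
  set D := v.1 * w.2 - w.1 * v.2 with hDdef
  set c : ℝ := |D⁻¹| with hc
  have hc0 : 0 < c := abs_pos.mpr (inv_ne_zero hD)
  have m0 := mp_lin (a := -v.1) (b := -w.1) (c := -v.2) (d := -w.2)
    (by rw [show -v.1 * -w.2 - -w.1 * -v.2 = D by ring]; exact hD)
  have m1 := mp_lin (a := v.1 - w.1) (b := v.1) (c := v.2 - w.2) (d := v.2)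
    (by rw [show (v.1 - w.1) * v.2 - v.1 * (v.2 - w.2) = D by ring]; exact hD)
  have m2 := mp_lin (a := w.1) (b := w.1 - v.1) (c := w.2) (d := w.2 - v.2)
    (by rw [show w.1 * (w.2 - v.2) - (w.1 - v.1) * w.2 = D by ring]; exact hD)
  rw [show -v.1 * -w.2 - -w.1 * -v.2 = D by ring] at m0
  rw [show (v.1 - w.1) * v.2 - v.1 * (v.2 - w.2) = D by ring] at m1
  rw [show w.1 * (w.2 - v.2) - (w.1 - v.1) * w.2 = D by ring] at m2
  obtain ⟨k0, n0⟩ := comp_lin hc0 m0 hH
  obtain ⟨k1, n1⟩ := comp_lin hc0 m1 hF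
  obtain ⟨k2, n2⟩ := comp_lin hc0 m2 hG
  obtain ⟨hint, hb⟩ := hC _ _ _ k0 k1 k2 ε R hε hR
  change _ ≤ C * (N3 _ * N3 _ * N3 _) at hb
  rw [n0, n1, n2] at hb
  set Kn := kern ε R (fun x => H (-v.1 * x.1 + -w.1 * x.2, -v.2 * x.1 + -w.2 * x.2))
    (fun x => F ((v.1 - w.1) * x.1 + v.1 * x.2, (v.2 - w.2) * x.1 + v.2 * x.2))
    (fun x => G (w.1 * x.1 + (w.1 - v.1) * x.2, w.2 * x.1 + (w.2 - v.2) * x.2)) with hK
  have e1 : ∫ x, Kn x = ∫ q, Kn (sh q) := by
    have h := integral_map (μ := (volume : Measure ((ℝ × ℝ) × ℝ))) (φ := sh)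
      mp_sh.measurable.aemeasurable (f := Kn) (by
        rw [mp_sh.map_eq]
        exact hint.1)
    rw [mp_sh.map_eq] at h
    exact h
  have hint2 : Integrable (fun q => Kn (sh q))
      ((volume : Measure (ℝ × ℝ)).prod (volume : Measure ℝ)) :=
    mp_sh.integrable_comp_of_integrable hint
  have e2 : ∫ q, Kn (sh q) = ∫ u : ℝ, ∫ p : ℝ × ℝ, Kn (sh (p, u)) := by
    rw [Measure.volume_eq_prod]
    exact integral_prod_symm _ hint2
  have e3 : ∀ u : ℝ, ∫ p : ℝ × ℝ, Kn (sh (p, u))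
      = (K ε R).indicator (fun t => (c : ℂ) * (Phi H F G (t • v) (t • w) / (t : ℂ))) u := by
    intro u
    simp only [hK, kern_sh]
    by_cases hu : ε < |u| ∧ |u| < R
    · rw [Set.indicator_of_mem (show u ∈ K ε R from hu)]
      simp only [hu, and_self, if_true]
      rw [integral_div, ← mul_div_assoc]
      congr 1
      have hi := tri_int hH (mem_tr hF (u • v)) (mem_tr hG (u • w))
      have h := integral_map (μ := (volume : Measure (ℝ × ℝ))) m0.measurable.aemeasurable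
        (f := fun z => H z * (F (z + u • v) * G (z + u • w))) (by
          rw [m0.map_eq]
          exact hi.1.smul_measure _)
      rw [m0.map_eq, integral_smul_measure, ENNReal.toReal_ofReal hc0.le] at h
      rw [Phi, ← Complex.real_smul, h]
      refine integral_congr_ae (ae_of_all _ fun p => ?_)
      simp only [pA, pB, mul_assoc]
      congr 3
      · ext <;> simp <;> ring
      · ext <;> simp <;> ring
    · rw [Set.indicator_of_notMem (show u ∉ K ε R from hu)]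
      simp only [hu, if_false, integral_zero]
  rw [e1, e2] at hb
  simp only [e3] at hb
  rw [integral_indicator (K_meas ε R), integral_const_mul, norm_mul, Complex.norm_real,
    Real.norm_of_nonneg hc0.le] at hb
  have e4 : c ^ ((1 : ℝ) / 3) * c ^ ((1 : ℝ) / 3) * c ^ ((1 : ℝ) / 3) = c := by
    rw [← Real.rpow_add hc0, ← Real.rpow_add hc0]; norm_num
  refine le_of_mul_le_mul_left (hb.trans (le_of_eq ?_)) hc0
  linear_combination (C * (N3 H * (N3 F * N3 G))) * e4

theorem Lam_cont (hH : MemLp H 3 volume) (hF : MemLp F 3 volume) (hG : MemLp G 3 volume)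
    {ε : ℝ} (hε : 0 < ε) (R : ℝ) :
    Continuous fun p : (ℝ × ℝ) × (ℝ × ℝ) => Lam p.1 p.2 ε R H F G := by
  have hP := Phi_cont hH hF hG
  have : IsFiniteMeasure (volume.restrict (K ε R)) := isFiniteMeasure_restrict.mpr (K_fin ε R).ne
  refine continuous_of_dominated (bound := fun _ => N3 H * (N3 F * N3 G) / ε) (fun p => ?_)
    (fun p => ?_) (integrable_const _) (ae_of_all _ fun t => ?_)
  · have h1 : Continuous fun t : ℝ => Phi H F G (t • p.1) (t • p.2) :=
      hP.comp (f := fun t : ℝ => (t • p.1, t • p.2)) (by fun_prop)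
    exact (h1.measurable.div Complex.measurable_ofReal).aestronglyMeasurable
  · refine (ae_restrict_iff' (K_meas ε R)).mpr (ae_of_all _ fun t ht => ?_)
    rw [norm_div, Complex.norm_real, Real.norm_eq_abs]
    exact div_le_div₀ (mul_nonneg (N3_nonneg _) (mul_nonneg (N3_nonneg _) (N3_nonneg _)))
      (Phi_le hH hF hG _ _) hε ht.1.le
  · exact (hP.comp (f := fun p : (ℝ × ℝ) × (ℝ × ℝ) => (t • p.1, t • p.2))
      (by fun_prop)).div_const _

/-- One constant for all pairs of directions. -/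
theorem Lam_all : ∃ C : ℝ, ∀ (v w : ℝ × ℝ) (H F G : ℝ × ℝ → ℂ), MemLp H 3 volume →
    MemLp F 3 volume → MemLp G 3 volume →
    ∀ ε R : ℝ, 0 < ε → ε < R → ‖Lam v w ε R H F G‖ ≤ C * (N3 H * (N3 F * N3 G)) := by
  obtain ⟨C, hC⟩ := Lam_indep
  refine ⟨C, fun v w H F G hH hF hG ε R hε hR => ?_⟩
  by_cases hD : v.1 * w.2 - w.1 * v.2 = 0
  swap
  · exact hC v w hD H F G hH hF hG ε R hε hR
  have hc : Continuous fun δ : ℝ => ‖Lam (v + (δ, 0)) (w + (0, δ)) ε R H F G‖ :=
    ((Lam_cont hH hF hG hε R).comp (f := fun δ : ℝ => (v + (δ, 0), w + (0, δ)))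
      (by fun_prop)).norm
  have ht := (hc.tendsto 0).mono_left (nhdsWithin_le_nhds (s := Set.Ioi (0 : ℝ)))
  simp only [Prod.mk_zero_zero, add_zero] at ht
  refine le_of_tendsto ht ?_
  have hev : ∀ᶠ δ : ℝ in 𝓝[>] 0, 0 < δ ∧ δ ≠ -(v.1 + w.2) := by
    rcases le_or_gt (-(v.1 + w.2)) 0 with h | h
    · filter_upwards [self_mem_nhdsWithin] with δ hδ
      exact ⟨hδ, (h.trans_lt hδ).ne'⟩
    · filter_upwards [Ioo_mem_nhdsGT h] with δ hδ
      exact ⟨hδ.1, hδ.2.ne⟩
  filter_upwards [hev] with δ hδ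
  refine hC _ _ ?_ H F G hH hF hG ε R hε hR
  have e : (v + (δ, 0)).1 * (w + (0, δ)).2 - (w + (0, δ)).1 * (v + (δ, 0)).2
      = δ * (δ + (v.1 + w.2)) := by
    simp only [Prod.fst_add, Prod.snd_add, add_zero]
    linear_combination hD
  rw [e]
  exact mul_ne_zero hδ.1.ne' fun h => hδ.2 (by linarith)

end Vale.Agent.N075
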