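import Vale.Agent.N075.Conv

open MeasureTheory Filter Vale.Agent.N075
open scoped Topology

/-- (1) Question Q1 as posed.  (2) The operator form `L³ × L³ → L^(3/2)`, for all pairs of
directions `v`, `w` of the plane with one constant; `v = (1,0)`, `w = (0,1)` is `B_{ε,R}`.
(3) For `v ≠ w` the truncations converge in `L^(3/2)` as `ε → 0`, `R → ∞`. -/
theorem Vale.Agent.N075.OldAllDirections.thm :
    (∃ C : ℝ, ∀ ε R : ℝ, 0 < ε → ε < R → ∀ G₀ G₁ G₂ : ℝ × ℝ → ℂ,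
      MemLp G₀ 3 volume → MemLp G₁ 3 volume → MemLp G₂ 3 volume →
        IntegrableOn (fun x : ℝ × ℝ × ℝ =>
            G₀ (x.1, x.2.1) * G₁ (x.2.1, x.2.2) * G₂ (x.2.2, x.1) / ((x.1 + x.2.1 + x.2.2 : ℝ) : ℂ))
          {x | ε < |x.1 + x.2.1 + x.2.2| ∧ |x.1 + x.2.1 + x.2.2| < R} volume ∧
        ‖∫ x in {x : ℝ × ℝ × ℝ | ε < |x.1 + x.2.1 + x.2.2| ∧ |x.1 + x.2.1 + x.2.2| < R},
            G₀ (x.1, x.2.1) * G₁ (x.2.1, x.2.2) * G₂ (x.2.2, x.1) / ((x.1 + x.2.1 + x.2.2 : ℝ) : ℂ)‖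
          ≤ C * ((eLpNorm G₀ 3 volume).toReal * (eLpNorm G₁ 3 volume).toReal
            * (eLpNorm G₂ 3 volume).toReal)) ∧
    ∃ C : NNReal, ∀ (v w : ℝ × ℝ) (F G : ℝ × ℝ → ℂ), MemLp F 3 volume → MemLp G 3 volume →
      (∀ ε R : ℝ, 0 < ε → ε < R →
        (∀ᵐ z : ℝ × ℝ, IntegrableOn (fun t : ℝ => F (z + t • v) * G (z + t • w) / (t : ℂ))
          {t : ℝ | ε < |t| ∧ |t| < R} volume) ∧ AEStronglyMeasurable (B v w ε R F G) volume ∧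
        eLpNorm (B v w ε R F G) (3 / 2) volume ≤ C * (eLpNorm F 3 volume * eLpNorm G 3 volume)) ∧
      (v ≠ w → ∃ T : ℝ × ℝ → ℂ, AEStronglyMeasurable T volume ∧
        eLpNorm T (3 / 2) volume ≤ C * (eLpNorm F 3 volume * eLpNorm G 3 volume) ∧
        Tendsto (fun p : ℝ × ℝ => eLpNorm (B v w p.1 p.2 F G - T) (3 / 2) volume)
          (𝓝[>] 0 ×ˢ atTop) (𝓝 0)) :=
  ⟨question, operator⟩
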