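import Vale.Agent.N075.Form
import Vale.Agent.N075.Defs

/-! # P075: the operator form -/

namespace Vale.Agent.N075

open MeasureTheory Filter Topology ENNReal Vale.Agent.P075.R Vale.Agent.P075.R.H903

variable {H F G : ℝ × ℝ → ℂ}

theorem aesm_line (ν : Measure ℝ) [SFinite ν] (hF : AEStronglyMeasurable F volume) (v : ℝ × ℝ) :
    AEStronglyMeasurable (fun p : ℝ × (ℝ × ℝ) => F (p.2 + p.1 • v)) (ν.prod volume) := by
  have h1 : MeasurePreserving (fun p : ℝ × (ℝ × ℝ) => (p.1, p.2 + p.1 • v))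
      (ν.prod volume) (ν.prod volume) := by
    refine MeasurePreserving.skew_product (f := fun t : ℝ => t)
      (g := fun (t : ℝ) (z : ℝ × ℝ) => z + t • v) (MeasurePreserving.id _) ?_ ?_
    · simp only [Function.uncurry_def]
      fun_prop
    · exact ae_of_all _ fun t => (measurePreserving_add_right volume (t • v)).map_eq
  exact hF.comp_quasiMeasurePreserving
    (Measure.quasiMeasurePreserving_snd.comp h1.quasiMeasurePreserving)

theorem aesm_two (ν : Measure ℝ) [SFinite ν] (hF : AEStronglyMeasurable F volume)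
    (hG : AEStronglyMeasurable G volume) (v w : ℝ × ℝ) :
    AEStronglyMeasurable (fun p : ℝ × (ℝ × ℝ) => F (p.2 + p.1 • v) * G (p.2 + p.1 • w) / (p.1 : ℂ))
      (ν.prod volume) := by
  simp only [div_eq_mul_inv]
  exact ((aesm_line ν hF v).mul (aesm_line ν hG w)).mul
    (Complex.measurable_ofReal.comp measurable_fst).inv.aestronglyMeasurable

theorem aesm_B (hF : AEStronglyMeasurable F volume) (hG : AEStronglyMeasurable G volume)
    (v w : ℝ × ℝ) (ε R : ℝ) : AEStronglyMeasurable (B v w ε R F G) volume :=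
  (aesm_two (volume.restrict (K ε R)) hF hG v w).prod_swap.integral_prod_right'

theorem int_prod (hH : MemLp H 3 volume) (hF : MemLp F 3 volume) (hG : MemLp G 3 volume)
    (v w : ℝ × ℝ) {ε : ℝ} (hε : 0 < ε) (R : ℝ) :
    Integrable (fun p : ℝ × (ℝ × ℝ) => H p.2 * (F (p.2 + p.1 • v) * G (p.2 + p.1 • w) / (p.1 : ℂ)))
      ((volume.restrict (K ε R)).prod volume) := by
  have hm : AEStronglyMeasurable
      (fun p : ℝ × (ℝ × ℝ) => H p.2 * (F (p.2 + p.1 • v) * G (p.2 + p.1 • w) / (p.1 : ℂ)))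
      ((volume.restrict (K ε R)).prod volume) :=
    (hH.1.comp_quasiMeasurePreserving Measure.quasiMeasurePreserving_snd).mul
      (aesm_two _ hF.1 hG.1 v w)
  have : IsFiniteMeasure (volume.restrict (K ε R)) := isFiniteMeasure_restrict.mpr (K_fin ε R).ne
  refine (integrable_prod_iff hm).mpr ⟨ae_of_all _ fun t => ?_, ?_⟩
  · simp only [← mul_div_assoc]
    exact (tri_int hH (mem_tr hF _) (mem_tr hG _)).div_const _
  · refine Integrable.of_bound hm.norm.integral_prod_right' (N3 H * (N3 F * N3 G) / ε) ?_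
    refine (ae_restrict_iff' (K_meas ε R)).mpr (ae_of_all _ fun t ht => ?_)
    rw [Real.norm_of_nonneg (integral_nonneg fun _ => norm_nonneg _)]
    simp only [← mul_div_assoc, norm_div, Complex.norm_real, Real.norm_eq_abs]
    rw [integral_div]
    refine div_le_div₀ (mul_nonneg (N3_nonneg _) (mul_nonneg (N3_nonneg _) (N3_nonneg _)))
      ?_ hε ht.1.le
    rw [integral_norm_eq_lintegral_enorm (tri_int hH (mem_tr hF _) (mem_tr hG _)).1]
    have h := tri_le hH (mem_tr hF (t • v)) (mem_tr hG (t • w))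
    rw [eLp_tr hF, eLp_tr hG] at h
    simp only [N3, ← ENNReal.toReal_mul]
    exact ENNReal.toReal_mono (ENNReal.mul_lt_top hH.2 (ENNReal.mul_lt_top hF.2 hG.2)).ne h

theorem pair_B (hH : MemLp H 3 volume) (hF : MemLp F 3 volume) (hG : MemLp G 3 volume)
    (v w : ℝ × ℝ) {ε : ℝ} (hε : 0 < ε) (R : ℝ) :
    Integrable (fun z => H z * B v w ε R F G z) volume ∧
      ∫ z, H z * B v w ε R F G z = Lam v w ε R H F G := by
  have hi := int_prod hH hF hG v w hε R
  have e : ∀ z, H z * B v w ε R F G z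
      = ∫ t in K ε R, H z * (F (z + t • v) * G (z + t • w) / (t : ℂ)) := fun z =>
    (integral_const_mul _ _).symm
  simp only [e]
  refine ⟨hi.integral_prod_right, ?_⟩
  rw [← integral_prod_symm _ hi, integral_prod _ hi]
  simp only [← mul_div_assoc, integral_div]
  rfl

theorem ae_int (hF : MemLp F 3 volume) (hG : MemLp G 3 volume)
    (v w : ℝ × ℝ) {ε : ℝ} (hε : 0 < ε) (R : ℝ) :
    ∀ᵐ z : ℝ × ℝ, IntegrableOn (fun t : ℝ => F (z + t • v) * G (z + t • w) / (t : ℂ))
      {t : ℝ | ε < |t| ∧ |t| < R} volume := by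
  have h : ∀ n : ℕ, ∀ᵐ z : ℝ × ℝ, Integrable (fun t : ℝ =>
      (Metric.ball (0 : ℝ × ℝ) n).indicator (fun _ => (1 : ℂ)) z *
        (F (z + t • v) * G (z + t • w) / (t : ℂ))) (volume.restrict (K ε R)) := fun n =>
    (int_prod (memLp_indicator_const 3 measurableSet_ball (1 : ℂ)
      (Or.inr measure_ball_lt_top.ne)) hF hG v w hε R).prod_left_ae
  filter_upwards [ae_all_iff.mpr h] with z hz
  obtain ⟨n, hn⟩ := exists_nat_gt ‖z‖
  have := hz n
  rw [Set.indicator_of_mem (mem_ball_zero_iff.mpr hn)] at this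
  simp only [one_mul] at this
  exact this

theorem dual_meas {g : ℝ × ℝ → ℂ} (hg : Measurable g) {c : ℝ} (hc : 0 ≤ c)
    (h : ∀ H, MemLp H 3 volume → ‖∫ z, H z * g z‖ ≤ c * N3 H) :
    eLpNorm g (3 / 2) volume ≤ ENNReal.ofReal c := by
  let S : ℕ → Set (ℝ × ℝ) := fun n => Metric.ball 0 n ∩ {z | ‖g z‖ ≤ n}
  have hS : ∀ n, MeasurableSet (S n) := fun n =>
    measurableSet_ball.inter (measurableSet_le hg.norm measurable_const)
  have hSf : ∀ n, volume (S n) ≠ ∞ := fun n =>
    ((measure_mono Set.inter_subset_left).trans_lt measure_ball_lt_top).ne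
  refine Lp.eLpNorm_le_of_ae_tendsto (u := atTop) (f := fun n => (S n).indicator g)
    (Eventually.of_forall fun n => ?_) (fun n => (hg.indicator (hS n)).aestronglyMeasurable)
    (ae_of_all _ fun z => ?_)
  swap
  · refine tendsto_const_nhds.congr' ?_
    obtain ⟨m, hm⟩ := exists_nat_gt (max ‖z‖ ‖g z‖)
    filter_upwards [eventually_ge_atTop m] with n hn
    have h1 : (m : ℝ) ≤ n := by exact_mod_cast hn
    rw [Set.indicator_of_mem]
    exact ⟨mem_ball_zero_iff.mpr ((le_max_left _ _).trans_lt (hm.trans_le h1)),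
      ((le_max_right _ _).trans hm.le).trans h1⟩
  set r : ℝ × ℝ → ℝ := (S n).indicator fun z => √‖g z‖ with hr
  have hr0 : ∀ z, 0 ≤ r z := fun z => Set.indicator_nonneg (fun _ _ => Real.sqrt_nonneg _) z
  set Hn : ℝ × ℝ → ℂ := (S n).indicator fun z => (starRingEnd ℂ) (g z) / (√‖g z‖ : ℝ) with hHn
  have a1 : ∀ z, ‖Hn z‖ = r z := by
    intro z
    by_cases hz : z ∈ S n
    · simp only [hHn, hr, Set.indicator_of_mem hz, norm_div, RCLike.norm_conj, Complex.norm_real,
        Real.norm_of_nonneg (Real.sqrt_nonneg _)]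
      exact Real.div_sqrt
    · simp only [hHn, hr, Set.indicator_of_notMem hz, norm_zero]
  have a2 : ∀ z, ‖(S n).indicator g z‖ = r z ^ 2 := by
    intro z
    by_cases hz : z ∈ S n
    · simp only [hr, Set.indicator_of_mem hz, Real.sq_sqrt (norm_nonneg _)]
    · simp [hr, Set.indicator_of_notMem hz]
  have a3 : ∀ z, Hn z * g z = ((r z ^ 3 : ℝ) : ℂ) := by
    intro z
    by_cases hz : z ∈ S n
    · simp only [hHn, hr, Set.indicator_of_mem hz]
      rw [div_mul_eq_mul_div, Complex.conj_mul', ← Complex.ofReal_pow, ← Complex.ofReal_div]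
      congr 1
      have h1 := Real.sq_sqrt (norm_nonneg (g z))
      have h2 : ‖g z‖ / √‖g z‖ = √‖g z‖ := Real.div_sqrt
      rw [sq, mul_div_assoc, h2]
      linear_combination (-√‖g z‖) * h1
    · simp [hHn, hr, Set.indicator_of_notMem hz]
  have bd : ∀ (p : ℝ≥0∞) (f : ℝ × ℝ → ℂ) (M : ℝ), Measurable f → (∀ z ∈ S n, ‖f z‖ ≤ M) →
      MemLp ((S n).indicator f) p volume := by
    intro p f M hf hM
    refine (memLp_indicator_const p (hS n) M (Or.inr (hSf n))).of_le
      (hf.indicator (hS n)).aestronglyMeasurable (ae_of_all _ fun z => ?_)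
    by_cases hz : z ∈ S n
    · simp only [Set.indicator_of_mem hz]
      exact (hM z hz).trans (le_abs_self _)
    · simp only [Set.indicator_of_notMem hz, norm_zero, le_refl]
  have m1 : MemLp Hn 3 volume := by
    refine bd 3 _ (√n) ((Complex.continuous_conj.measurable.comp hg).div
      (Complex.measurable_ofReal.comp hg.norm.sqrt)) fun z hz => ?_
    have := a1 z
    simp only [hHn, hr, Set.indicator_of_mem hz] at this
    rw [this]
    exact Real.sqrt_le_sqrt hz.2
  have m2 : MemLp ((S n).indicator g) (3 / 2) volume := bd _ g n hg fun z hz => hz.2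
  set I : ℝ := ∫ z, r z ^ 3 with hI
  have hI0 : 0 ≤ I := integral_nonneg fun z => pow_nonneg (hr0 z) 3
  set J : ℝ := I ^ ((3 : ℝ)⁻¹) with hJ
  have hJ0 : 0 ≤ J := Real.rpow_nonneg hI0 _
  have hJ3 : J ^ 3 = I := by
    rw [hJ, ← Real.rpow_natCast, ← Real.rpow_mul hI0]; norm_num
  have n1 : N3 Hn = J := by
    rw [N3, m1.eLpNorm_eq_integral_rpow_norm (by norm_num) (by norm_num),
      ENNReal.toReal_ofReal (by positivity)]
    simp only [a1, ENNReal.toReal_ofNat, Real.rpow_ofNat]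
    rfl
  have h1 := h Hn m1
  simp only [a3] at h1
  rw [integral_complex_ofReal, n1, ← hI] at h1
  have h2 : I ≤ c * J := (le_abs_self I).trans (by simpa using h1)
  have h3 : J ^ 2 ≤ c := by
    rcases hJ0.eq_or_lt with h0 | h0
    · rw [← h0]; simpa using hc
    · refine le_of_mul_le_mul_right ?_ h0
      calc J ^ 2 * J = I := by rw [← hJ3]; ring
        _ ≤ c * J := h2
  have t32 : (3 / 2 : ℝ≥0∞).toReal = 3 / 2 := by
    rw [ENNReal.toReal_div]; norm_num
  rw [m2.eLpNorm_eq_integral_rpow_norm (by norm_num) (ENNReal.div_ne_top (by norm_num)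
    (by norm_num)), t32]
  refine ENNReal.ofReal_le_ofReal (le_trans (le_of_eq ?_) h3)
  have e : ∀ z, ‖(S n).indicator g z‖ ^ (3 / 2 : ℝ) = r z ^ 3 := by
    intro z
    rw [a2, ← Real.rpow_natCast, ← Real.rpow_mul (hr0 z), ← Real.rpow_natCast]
    norm_num
  simp only [e]
  rw [← hI, hJ, ← Real.rpow_natCast, ← Real.rpow_mul hI0]
  norm_num

theorem dual {g : ℝ × ℝ → ℂ} (hg : AEStronglyMeasurable g volume) {c : ℝ} (hc : 0 ≤ c)
    (h : ∀ H, MemLp H 3 volume → ‖∫ z, H z * g z‖ ≤ c * N3 H) :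
    eLpNorm g (3 / 2) volume ≤ ENNReal.ofReal c := by
  rw [eLpNorm_congr_ae hg.ae_eq_mk]
  refine dual_meas hg.stronglyMeasurable_mk.measurable hc fun H hH => ?_
  rw [← integral_congr_ae (f := fun z => H z * g z)
    (by filter_upwards [hg.ae_eq_mk] with z hz; rw [hz])]
  exact h H hH

theorem B_bound {C : ℝ} (hC0 : 0 ≤ C) (hC : ∀ (v w : ℝ × ℝ) (H F G : ℝ × ℝ → ℂ),
    MemLp H 3 volume → MemLp F 3 volume → MemLp G 3 volume →
    ∀ ε R : ℝ, 0 < ε → ε < R → ‖Lam v w ε R H F G‖ ≤ C * (N3 H * (N3 F * N3 G)))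
    (hF : MemLp F 3 volume) (hG : MemLp G 3 volume) (v w : ℝ × ℝ) {ε R : ℝ} (hε : 0 < ε)
    (hR : ε < R) :
    eLpNorm (B v w ε R F G) (3 / 2) volume ≤ ENNReal.ofReal (C * (N3 F * N3 G)) := by
  refine dual (aesm_B hF.1 hG.1 v w ε R)
    (mul_nonneg hC0 (mul_nonneg (N3_nonneg _) (N3_nonneg _))) fun H hH => ?_
  rw [(pair_B hH hF hG v w hε R).2]
  exact (hC v w H F G hH hF hG ε R hε hR).trans (le_of_eq (by ring))

end Vale.Agent.N075
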